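import Mathlib

/-!
A finite-dimensional division algebra stays one after adjoining variables `z_l` and dividing.
-/

noncomputable section

namespace Vale.Agent.P200.Deg.Torus

open MvPolynomial Module TensorProduct

set_option linter.unusedSectionVars false

universe u

variable {K : Type u} [Field K] {D : Type u} [DivisionRing D] [Algebra K D]
  [FiniteDimensional K D] {m : ℕ}

/-- The rational functions in the `z_l`. -/
abbrev Zf (K : Type u) [Field K] (m : ℕ) : Type u := FractionRing (MvPolynomial (Fin m) K)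

/-- Polynomials in the `z_l` with coefficients in `D`, mapped into the extension. -/
def iota : AddMonoidAlgebra D (Fin m →₀ ℕ) →+* Zf K m ⊗[K] D :=
  AddMonoidAlgebra.liftNCRingHom
    (Algebra.TensorProduct.includeRight : D →ₐ[K] Zf K m ⊗[K] D).toRingHom
    { toFun := fun α => algebraMap _ (Zf K m) (monomial α.toAdd (1 : K)) ⊗ₜ (1 : D)
      map_one' := by simp [Algebra.TensorProduct.one_def, monomial_zero']
      map_mul' := fun α β => by
        rw [Algebra.TensorProduct.tmul_mul_tmul, ← map_mul, monomial_mul]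
        simp }
    fun d α => by
      change _ * _ = _ * _
      simp

lemma iota_single (α : Fin m →₀ ℕ) (d : D) :
    iota (K := K) (AddMonoidAlgebra.single α d) =
      algebraMap _ (Zf K m) (monomial α (1 : K)) ⊗ₜ d := by
  simp [iota]

lemma iota_injective : Function.Injective (iota (K := K) (D := D) (m := m)) := by
  classical
  refine (injective_iff_map_eq_zero _).2 fun P hP => ?_
  let bD := Module.finBasis K D
  ext α
  refine bD.repr.injective (Finsupp.ext fun i => ?_)
  let p : MvPolynomial (Fin m) K := ∑ β ∈ P.coeff.support, monomial β (bD.repr (P.coeff β) i)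
  have hp : algebraMap _ (Zf K m) p = 0 := by
    have h := congrArg (fun y => (Algebra.TensorProduct.basis (Zf K m) bD).repr y i) hP
    conv at h => lhs; rw [← P.sum_coeff_single]
    simp only [Finsupp.sum, map_sum, iota_single, Finsupp.finsetSum_apply, map_zero,
      Algebra.TensorProduct.basis_repr_tmul, Finsupp.zero_apply] at h
    rw [← h, map_sum]
    refine Finset.sum_congr rfl fun β _ => ?_
    rw [Finsupp.smul_apply, Finsupp.mapRange_apply, smul_eq_mul, mul_comm,
      IsScalarTower.algebraMap_apply K (MvPolynomial (Fin m) K) (Zf K m), ← map_mul,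
      MvPolynomial.algebraMap_eq, C_mul_monomial, mul_one]
  have hp' := congrArg (coeff α) ((map_eq_zero_iff _ (IsFractionRing.injective _ (Zf K m))).1 hp)
  rw [coeff_sum, coeff_zero] at hp'
  simp only [coeff_monomial] at hp'
  rw [Finset.sum_ite_eq'] at hp'
  by_cases hα : α ∈ P.coeff.support
  · simpa [hα] using hp'
  · simp [Finsupp.notMem_support_iff.1 hα]

/-- Polynomials as elements of the monoid algebra. -/
def ofPoly (p : MvPolynomial (Fin m) K) : AddMonoidAlgebra D (Fin m →₀ ℕ) :=
  ∑ α ∈ p.support, AddMonoidAlgebra.single α (algebraMap K D (coeff α p))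

lemma iota_ofPoly (p : MvPolynomial (Fin m) K) :
    iota (K := K) (ofPoly (D := D) p) = algebraMap _ (Zf K m) p ⊗ₜ (1 : D) := by
  conv_rhs => rw [p.as_sum, map_sum, TensorProduct.sum_tmul]
  rw [ofPoly, map_sum]
  refine Finset.sum_congr rfl fun α _ => ?_
  rw [iota_single, Algebra.algebraMap_eq_smul_one (A := D), TensorProduct.tmul_smul, TensorProduct.smul_tmul',
    Algebra.smul_def, IsScalarTower.algebraMap_apply K (MvPolynomial (Fin m) K) (Zf K m),
    ← map_mul, MvPolynomial.algebraMap_eq, C_mul_monomial, mul_one]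

lemma exists_poly (y : Zf K m ⊗[K] D) : ∃ (q : MvPolynomial (Fin m) K)
    (P : AddMonoidAlgebra D (Fin m →₀ ℕ)), q ≠ 0 ∧
      (algebraMap _ (Zf K m) q ⊗ₜ (1 : D)) * y = iota P := by
  induction y using TensorProduct.induction_on with
  | zero => exact ⟨1, 0, one_ne_zero, by simp⟩
  | tmul l d =>
    obtain ⟨p, q, hq, rfl⟩ := IsFractionRing.div_surjective (MvPolynomial (Fin m) K) l
    refine ⟨q, ofPoly p * AddMonoidAlgebra.single 0 d, nonZeroDivisors.ne_zero hq, ?_⟩
    rw [map_mul, iota_ofPoly, iota_single, Algebra.TensorProduct.tmul_mul_tmul,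
      Algebra.TensorProduct.tmul_mul_tmul, monomial_zero', map_one, map_one, mul_one, one_mul,
      mul_div_cancel₀ _ ((map_ne_zero_iff _ (IsFractionRing.injective _ (Zf K m))).2
        (nonZeroDivisors.ne_zero hq))]
  | add x y hx hy =>
    obtain ⟨q, P, hq, hP⟩ := hx
    obtain ⟨q', P', hq', hP'⟩ := hy
    refine ⟨q * q', ofPoly q' * P + ofPoly q * P', mul_ne_zero hq hq', ?_⟩
    rw [map_add, map_mul (iota (K := K)), map_mul (iota (K := K)), ← hP, ← hP', iota_ofPoly,
      iota_ofPoly, mul_add, ← mul_assoc, ← mul_assoc, Algebra.TensorProduct.tmul_mul_tmul,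
      Algebra.TensorProduct.tmul_mul_tmul, map_mul, one_mul, mul_comm (algebraMap _ (Zf K m) q')]

lemma isDomain_ext : IsDomain (Zf K m ⊗[K] D) := by
  have hnt : Nontrivial (Zf K m ⊗[K] D) := iota_injective.nontrivial
  have hnz : NoZeroDivisors (Zf K m ⊗[K] D) := by
    refine ⟨fun {x y} hxy => ?_⟩
    obtain ⟨q, P, hq, hP⟩ := exists_poly x
    obtain ⟨q', P', hq', hP'⟩ := exists_poly y
    have hu : ∀ {q : MvPolynomial (Fin m) K}, q ≠ 0 →
        IsUnit (algebraMap _ (Zf K m) q ⊗ₜ (1 : D) : Zf K m ⊗[K] D) := fun {q} hq => by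
      rw [← Algebra.TensorProduct.algebraMap_apply]
      exact ((map_ne_zero_iff _ (IsFractionRing.injective _ (Zf K m))).2 hq).isUnit.map (algebraMap (Zf K m) (Zf K m ⊗[K] D))
    have hc : Commute x (algebraMap _ (Zf K m) q' ⊗ₜ (1 : D)) := by
      rw [← Algebra.TensorProduct.algebraMap_apply]
      exact (Algebra.commutes _ x).symm
    have h0 : iota (K := K) (P * P') = 0 := by
      rw [map_mul, ← hP, ← hP', mul_assoc, ← mul_assoc x, hc.eq, mul_assoc _ x y, hxy]
      simp
    rcases mul_eq_zero.1 (iota_injective (h0.trans (map_zero _).symm)) with h | h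
    · exact .inl ((hu hq).mul_right_eq_zero.1 (by rw [hP, h, map_zero]))
    · exact .inr ((hu hq').mul_right_eq_zero.1 (by rw [hP', h, map_zero]))
  exact NoZeroDivisors.to_isDomain _

/-- The extension, as a division algebra over the rational functions in the `z_l`. -/
theorem exists_ext (K : Type u) [Field K] (D : Type u) [DivisionRing D] [Algebra K D]
    [FiniteDimensional K D] (m : ℕ) :
    ∃ (E : Type u) (_ : DivisionRing E) (_ : Algebra (Zf K m) E) (_ : Algebra K E)
      (_ : IsScalarTower K (Zf K m) E), ∃ φ : D →ₐ[K] E, ∀ y : E,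
        ∃ (t : Finset (Fin m →₀ ℕ)) (d : (Fin m →₀ ℕ) → D) (q : MvPolynomial (Fin m) K),
          q ≠ 0 ∧ algebraMap (Zf K m) E (algebraMap _ (Zf K m) q) * y =
            ∑ α ∈ t, algebraMap (Zf K m) E (algebraMap _ (Zf K m) (monomial α (1 : K))) *
              φ (d α) := by
  have hdom := isDomain_ext (K := K) (D := D) (m := m)
  refine ⟨Zf K m ⊗[K] D, divisionRingOfFiniteDimensional (Zf K m) (Zf K m ⊗[K] D),
    (inferInstance : Algebra (Zf K m) (Zf K m ⊗[K] D)), (inferInstance : Algebra K (Zf K m ⊗[K] D)),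
    (inferInstance : IsScalarTower K (Zf K m) (Zf K m ⊗[K] D)),
    Algebra.TensorProduct.includeRight, fun y => ?_⟩
  obtain ⟨q, P, hq, hP⟩ := exists_poly y
  refine ⟨P.coeff.support, fun α => P.coeff α, q, hq, ?_⟩
  rw [Algebra.TensorProduct.algebraMap_apply]
  refine hP.trans ?_
  conv_lhs => rw [← P.sum_coeff_single]
  rw [Finsupp.sum, map_sum]
  refine Finset.sum_congr rfl fun α _ => ?_
  rw [iota_single, Algebra.TensorProduct.algebraMap_apply,
    Algebra.TensorProduct.includeRight_apply, Algebra.TensorProduct.tmul_mul_tmul, mul_one, one_mul]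
  rfl

end Vale.Agent.P200.Deg.Torus
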