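import Vale.Agent.P200.Deg.Torus.Field

/-!
The twisted algebra on generators `t_r` with `t_r ^ a = T_r`, as operators on rational functions,
is a finite-dimensional division algebra.
-/

noncomputable section

namespace Vale.Agent.P200.Deg.Torus

open MvPolynomial Module

set_option linter.unusedSectionVars false

universe u

variable {K : Type u} [Field K] {a b : ℕ} [NeZero a] {w : K} (hw : w ^ a = 1)

/-- The twist of an exponent. -/
def chiExp (α : Fin b →₀ ℕ) (j : Fin b) : ZMod a :=
  ∑ r ∈ Finset.univ.filter (· < j), (α r : ZMod a)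

lemma chiExp_add (α β : Fin b →₀ ℕ) :
    (chiExp (α + β) : Fin b → ZMod a) = chiExp α + chiExp β := by
  funext j
  simp [chiExp, Finset.sum_add_distrib]

lemma chiExp_smul (γ : Fin b →₀ ℕ) : (chiExp (a • γ) : Fin b → ZMod a) = 0 := by
  funext j
  simp [chiExp]

/-- The operator of a monomial. -/
def mu (α : Fin b →₀ ℕ) : Module.End (Base K b) (Rat' K b a) where
  toFun f := poly (monomial α 1) * tw hw (chiExp α) f
  map_add' f g := by rw [map_add, mul_add]
  map_smul' c f := by
    rw [Algebra.smul_def, map_mul, tw_algebraMap, RingHom.id_apply, Algebra.smul_def]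
    ring

lemma mu_apply (α : Fin b →₀ ℕ) (f : Rat' K b a) :
    mu hw α f = poly (monomial α 1) * tw hw (chiExp α) f := rfl

lemma mu_zero : mu hw (0 : Fin b →₀ ℕ) = 1 := by
  refine LinearMap.ext fun f => ?_
  rw [mu_apply, show (chiExp (0 : Fin b →₀ ℕ) : Fin b → ZMod a) = 0 by funext j; simp [chiExp],
    tw_zero, monomial_zero', map_one, map_one, one_mul]
  rfl

variable (w) in
/-- The commutation scalar. -/
def kap (α β : Fin b →₀ ℕ) : K := ∏ j, wz w ((chiExp α j : ZMod a)) ^ β j

lemma mu_mul (α β : Fin b →₀ ℕ) :
    mu hw α * mu hw β = algebraMap K (Base K b) (kap (a := a) w α β) • mu hw (α + β) := by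
  refine LinearMap.ext fun f => ?_
  rw [Module.End.mul_apply, LinearMap.smul_apply, mu_apply, mu_apply, mu_apply, map_mul, tw_poly,
    tw_add, ← chiExp_add, Algebra.smul_def, algebraMap_K, ← mul_assoc, ← map_mul, ← mul_assoc,
    ← map_mul, scal_monomial, monomial_mul, C_mul_monomial]
  simp [kap]

lemma mu_smul_exp (γ : Fin b →₀ ℕ) (β : Fin b →₀ ℕ) :
    mu hw (a • γ + β) =
      algebraMap (MvPolynomial (Fin b) K) (Base K b) (monomial γ 1) • mu hw β := by
  refine LinearMap.ext fun f => ?_
  rw [LinearMap.smul_apply, mu_apply, mu_apply, chiExp_add, chiExp_smul, zero_add,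
    Algebra.smul_def, algebraMap_base, expand_monomial, ← mul_assoc, ← map_mul, monomial_mul,
    one_mul]

/-- The twisted algebra. -/
def torus : Subalgebra (Base K b) (Module.End (Base K b) (Rat' K b a)) :=
  (Submodule.span (Base K b) (Set.range (mu hw))).toSubalgebra
    (Submodule.subset_span ⟨0, mu_zero hw⟩) fun x y hx hy => by
      induction hx using Submodule.span_induction with
      | mem x hx =>
        obtain ⟨α, rfl⟩ := hx
        induction hy using Submodule.span_induction with
        | mem y hy =>
          obtain ⟨β, rfl⟩ := hy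
          rw [mu_mul]
          exact Submodule.smul_mem _ _ (Submodule.subset_span ⟨_, rfl⟩)
        | zero => simp
        | add y z _ _ h h' => rw [mul_add]; exact add_mem h h'
        | smul c y _ h => rw [mul_smul_comm]; exact Submodule.smul_mem _ _ h
      | zero => simp
      | add x z _ _ h h' => rw [add_mul]; exact add_mem h h'
      | smul c x _ h => rw [smul_mul_assoc]; exact Submodule.smul_mem _ _ h

/-- A reduced exponent as a finitely supported function. -/
def red (α : Fin b → Fin a) : Fin b →₀ ℕ := Finsupp.equivFunOnFinite.symm fun r => (α r : ℕ)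

lemma span_red :
    Submodule.span (Base K b) (Set.range (mu hw)) ≤
      Submodule.span (Base K b) (Set.range fun α : Fin b → Fin a => mu hw (red α)) := by
  refine Submodule.span_le.2 ?_
  rintro _ ⟨α, rfl⟩
  have e : α = a • (Finsupp.equivFunOnFinite.symm fun r => α r / a) +
      red fun r => (⟨α r % a, Nat.mod_lt _ (NeZero.pos a)⟩ : Fin a) := by
    ext r
    simp [red, Nat.div_add_mod]
  rw [e, mu_smul_exp]
  exact Submodule.smul_mem _ _ (Submodule.subset_span ⟨_, rfl⟩)

instance finite_torus : Module.Finite (Base K b) (torus (a := a) (b := b) hw) := by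
  have h : Module.Finite (Base K b)
      (Submodule.span (Base K b) (Set.range fun α : Fin b → Fin a => mu hw (red α))) :=
    Module.Finite.span_of_finite _ (Set.finite_range _)
  exact Submodule.finiteDimensional_of_le (S₁ := Subalgebra.toSubmodule (torus hw)) (span_red hw)

lemma support_expand {p : MvPolynomial (Fin b) K} {d : Fin b →₀ ℕ}
    (hd : d ∈ (expand a p).support) (j : Fin b) : a ∣ d j := by
  classical
  rw [p.as_sum, map_sum] at hd
  obtain ⟨e, -, he⟩ := Finset.mem_biUnion.1 (MvPolynomial.support_sum hd)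
  rw [expand_monomial] at he
  rw [Finset.mem_singleton.1 (support_monomial_subset he)]
  exact ⟨e j, by simp⟩

/-- Elements of the algebra have trivial kernel unless zero. -/
theorem torus_injective {x : Module.End (Base K b) (Rat' K b a)} (hx : x ∈ torus hw) (hx0 : x ≠ 0)
    {f : Rat' K b a} (hf : f ≠ 0) : x f ≠ 0 := by
  classical
  intro hxf
  have hx' := span_red hw hx
  rw [Submodule.mem_span_range_iff_exists_fun] at hx'
  obtain ⟨c, rfl⟩ := hx'
  obtain ⟨⟨Q, hQ⟩, hQc⟩ := IsLocalization.exist_integer_multiples_of_finite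
    (nonZeroDivisors (MvPolynomial (Fin b) K)) c
  choose p hp using hQc
  have hQ0 : algebraMap (MvPolynomial (Fin b) K) (Base K b) Q ≠ 0 :=
    IsFractionRing.to_map_ne_zero_of_mem_nonZeroDivisors hQ
  -- a denominator fixed by all the scalings
  obtain ⟨g, h, hh, hfr⟩ := exists_frac f
  let H : MvPolynomial (Fin b) K := ∏ v : Fin b → ZMod a, scal w v h
  have hHinv : ∀ u : Fin b → ZMod a, scal w u H = H := fun u => by
    rw [map_prod, Finset.prod_congr rfl fun v _ => scal_add hw u v h]
    exact Equiv.prod_comp (Equiv.addLeft u) (fun v => scal w v h)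
  have hH0 : H ≠ 0 := Finset.prod_ne_zero_iff.2 fun v _ =>
    (map_ne_zero_iff _ (scal_injective hw v)).2 hh
  let g' : MvPolynomial (Fin b) K := g * ∏ v ∈ Finset.univ.erase (0 : Fin b → ZMod a), scal w v h
  have hfH : f * poly H = poly g' := by
    rw [show H = h * ∏ v ∈ Finset.univ.erase (0 : Fin b → ZMod a), scal w v h by
      change (∏ v, scal w v h) = _
      rw [← Finset.mul_prod_erase _ _ (Finset.mem_univ (0 : Fin b → ZMod a)), scal_zero],
      map_mul, ← mul_assoc, hfr, ← map_mul]
  have hg' : g' ≠ 0 := fun h0 => by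
    rw [h0, map_zero, mul_eq_zero] at hfH
    exact hfH.elim hf ((map_ne_zero_iff _ poly_injective).2 hH0)
  -- the image times the denominators is a polynomial
  let P : (Fin b → Fin a) → MvPolynomial (Fin b) K := fun α =>
    expand a (p α) * (monomial (red α) 1 * scal w (chiExp (red α) : Fin b → ZMod a) g')
  have hsum : ∑ α, P α = 0 := by
    apply poly_injective (a := a)
    rw [map_zero, map_sum]
    calc ∑ α, poly (P α)
        = ∑ α, algebraMap (Base K b) (Rat' K b a) (algebraMap _ _ Q) *
            (c α • mu hw (red α) f) * poly H := by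
          refine Finset.sum_congr rfl fun α _ => ?_
          rw [map_mul, map_mul, ← algebraMap_base, hp α, Algebra.smul_def, map_mul, ← tw_poly hw,
            ← hfH, map_mul, tw_poly, hHinv, Algebra.smul_def (c α), mu_apply]
          ring
      _ = 0 := by
          rw [← Finset.sum_mul, ← Finset.mul_sum,
            show ∑ α, c α • mu hw (red α) f = (∑ α, c α • mu hw (red α)) f by simp, hxf,
            mul_zero, zero_mul]
  -- leading exponents are different modulo `a`
  let S : Finset (Fin b → Fin a) := Finset.univ.filter fun α => p α ≠ 0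
  have hS : S.Nonempty := by
    by_contra hS
    refine hx0 (Finset.sum_eq_zero fun α _ => ?_)
    have hp0 : p α = 0 := by
      by_contra hne
      exact hS ⟨α, Finset.mem_filter.2 ⟨Finset.mem_univ α, hne⟩⟩
    have h0 := hp α
    rw [hp0, map_zero, Algebra.smul_def, eq_comm, mul_eq_zero] at h0
    rw [h0.resolve_left hQ0, zero_smul]
  let mo : MonomialOrder (Fin b) := MonomialOrder.lex
  have hP0 : ∀ α ∈ S, P α ≠ 0 := fun α hα => mul_ne_zero
    ((expand_ne_zero (NeZero.pos a)).2 (Finset.mem_filter.1 hα).2)
    (mul_ne_zero (by rw [Ne, monomial_eq_zero]; exact one_ne_zero)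
      ((map_ne_zero_iff _ (scal_injective hw _)).2 hg'))
  have hsame : ∀ v : Fin b → ZMod a, mo.degree (scal w v g') = mo.degree g' := fun v => by
    unfold MonomialOrder.degree
    rw [support_scal hw]
  have hres : ∀ α ∈ S, ∀ j, (mo.degree (P α) j : ZMod a) = (α j : ℕ) + (mo.degree g' j : ℕ) := by
    intro α hα j
    have hp' := (expand_ne_zero (σ := Fin b) (R := K) (NeZero.pos a)).2 (Finset.mem_filter.1 hα).2
    have hs' := (map_ne_zero_iff _ (scal_injective hw (chiExp (red α)))).2 hg'
    have hm : (monomial (red α) (1 : K)) ≠ 0 := by rw [Ne, monomial_eq_zero]; exact one_ne_zero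
    rw [mo.degree_mul hp' (mul_ne_zero hm hs'), mo.degree_mul hm hs', hsame,
      mo.degree_monomial, if_neg one_ne_zero]
    have := (CharP.cast_eq_zero_iff (ZMod a) a _).2 (support_expand (mo.degree_mem_support hp') j)
    simp [red, this]
  obtain ⟨α₀, hα₀, hmax⟩ := S.exists_max_image (fun α => mo.toSyn (mo.degree (P α))) hS
  have h0 := congrArg (coeff (mo.degree (P α₀))) hsum
  rw [coeff_zero, coeff_sum, Finset.sum_eq_single α₀ (fun β _ hβ => ?_) (by simp)] at h0
  · exact mo.coeff_degree_ne_zero_iff.2 (hP0 α₀ hα₀) h0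
  by_cases hβS : β ∈ S
  · refine mo.coeff_eq_zero_of_lt (lt_of_le_of_ne (hmax β hβS) fun he => hβ (funext fun j => ?_))
    have hd := mo.toSyn.injective he
    have h1 := hres β hβS j
    rw [hd, hres α₀ hα₀ j, add_left_inj, ZMod.natCast_eq_natCast_iff', Nat.mod_eq_of_lt (α₀ j).2,
      Nat.mod_eq_of_lt (β j).2] at h1
    exact Fin.ext h1.symm
  · have hp0 : p β = 0 := by simpa [S] using hβS
    simp [P, hp0]

instance nzd_torus : NoZeroDivisors (torus (a := a) (b := b) hw) := ⟨fun {x y} hxy => by
  by_contra hne
  rw [not_or] at hne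
  have hx : (x : Module.End (Base K b) (Rat' K b a)) ≠ 0 := fun h => hne.1 (Subtype.ext h)
  refine hne.2 (Subtype.ext (LinearMap.ext fun f => ?_))
  by_contra hyf
  exact torus_injective hw x.2 hx hyf (LinearMap.congr_fun (congrArg Subtype.val hxy) f)⟩

instance isDomain_torus : IsDomain (torus (a := a) (b := b) hw) :=
  (NoZeroDivisors.to_isDomain ↥(torus (a := a) (b := b) hw) :)

/-- The generators. -/
def gen (r : Fin b) : torus (a := a) (b := b) hw :=
  ⟨mu hw (Finsupp.single r 1), Submodule.subset_span ⟨_, rfl⟩⟩

lemma kap_single (r s : Fin b) :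
    kap (a := a) w (Finsupp.single r 1) (Finsupp.single s 1) = if r < s then wz w (1 : ZMod a) else 1 := by
  classical
  rw [kap, Finset.prod_eq_single s (fun j _ hj => by simp [Finsupp.single_eq_of_ne hj]) (by simp),
    Finsupp.single_eq_same, pow_one, chiExp, Finset.sum_filter,
    Finset.sum_eq_single r (fun j _ hj => by simp [Finsupp.single_eq_of_ne hj]) (by simp)]
  split_ifs <;> simp [wz_zero]

lemma gen_comm {r s : Fin b} (h : r < s) :
    gen hw r * gen hw s = algebraMap K (Base K b) w • (gen (a := a) hw s * gen hw r) := by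
  refine Subtype.ext ?_
  change mu hw (Finsupp.single r 1) * mu hw (Finsupp.single s 1) =
    algebraMap K (Base K b) w • (mu hw (Finsupp.single s 1) * mu hw (Finsupp.single r 1))
  rw [mu_mul, mu_mul, kap_single, kap_single, if_pos h, if_neg h.not_gt, map_one, one_smul,
    add_comm (Finsupp.single s 1)]
  congr 2
  simpa using wz_natCast (a := a) hw 1

lemma gen_pow (r : Fin b) :
    (gen (a := a) hw r) ^ a =
      algebraMap (Base K b) _ (algebraMap (MvPolynomial (Fin b) K) (Base K b) (X r)) := by
  refine Subtype.ext ?_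
  have hn : ∀ n : ℕ, (mu (a := a) hw (Finsupp.single r 1)) ^ n = mu hw (Finsupp.single r n) := by
    intro n
    induction n with
    | zero => rw [pow_zero, Finsupp.single_zero, mu_zero]
    | succ n ih =>
      rw [pow_succ, ih, mu_mul, ← Finsupp.single_add]
      have : kap (a := a) w (Finsupp.single r n) (Finsupp.single r 1) = 1 := by
        classical
        rw [kap, Finset.prod_eq_single r (fun j _ hj => by simp [Finsupp.single_eq_of_ne hj])
          (by simp), chiExp, Finset.sum_eq_zero fun j hj => ?_]
        · simp [wz_zero]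
        · simp [Finsupp.single_eq_of_ne (ne_of_lt (Finset.mem_filter.1 hj).2)]
      rw [this, map_one, one_smul]
  change (mu hw (Finsupp.single r 1)) ^ a = algebraMap (Base K b) _ _
  rw [hn, Algebra.algebraMap_eq_smul_one, ← mu_zero hw,
    show (X r : MvPolynomial (Fin b) K) = monomial (Finsupp.single r 1) 1 from rfl, ← mu_smul_exp]
  simp

lemma gen_ne_zero (r : Fin b) : gen (a := a) hw r ≠ 0 := fun h => by
  have := LinearMap.congr_fun (congrArg Subtype.val h) 1
  change mu hw (Finsupp.single r 1) 1 = 0 at this
  rw [mu_apply, map_one (tw hw _), mul_one, map_eq_zero_iff _ poly_injective, monomial_eq_zero] at this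
  exact one_ne_zero this

include hw in
/-- The quantum torus as an abstract division algebra. -/
theorem exists_torus :
    ∃ (D : Type u) (_ : DivisionRing D) (_ : Algebra (Base K b) D)
      (_ : FiniteDimensional (Base K b) D) (t : Fin b → D), (∀ r, t r ≠ 0) ∧
      (∀ r s, r < s → t r * t s = algebraMap (Base K b) D (algebraMap K (Base K b) w) * (t s * t r)) ∧
      ∀ r, t r ^ a = algebraMap (Base K b) D (algebraMap (MvPolynomial (Fin b) K) (Base K b) (X r)) :=
  ⟨↥(torus (a := a) (b := b) hw),
    divisionRingOfFiniteDimensional (Base K b) ↥(torus (a := a) (b := b) hw),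
    (inferInstance : Algebra (Base K b) ↥(torus (a := a) (b := b) hw)),
    finite_torus hw, gen hw, gen_ne_zero hw,
    fun _ _ h => (gen_comm hw h).trans (Algebra.smul_def _ _), gen_pow hw⟩

end Vale.Agent.P200.Deg.Torus
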