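import Mathlib

/-!
Rational functions in `s_1 .. s_b`, an algebra over rational functions in `T_r = s_r ^ a`, with the
automorphisms scaling the variables by roots of unity.
-/

noncomputable section

namespace Vale.Agent.P200.Deg.Torus

open MvPolynomial

set_option linter.unusedSectionVars false

universe u

variable (K : Type u) [Field K] (a b : ℕ)

/-- The rational functions in the `T_r`. -/
abbrev Base : Type u := FractionRing (MvPolynomial (Fin b) K)

/-- The rational functions in the `s_r`, over `Base` by `T_r ↦ s_r ^ a`. -/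
def Rat' (_a : ℕ) : Type u := FractionRing (MvPolynomial (Fin b) K)

instance : Field (Rat' K b a) := inferInstanceAs (Field (FractionRing (MvPolynomial (Fin b) K)))

variable {K a b}

/-- Polynomials in the `s_r` as rational functions. -/
def poly : MvPolynomial (Fin b) K →+* Rat' K b a :=
  algebraMap (MvPolynomial (Fin b) K) (FractionRing (MvPolynomial (Fin b) K))

lemma poly_injective : Function.Injective (poly : MvPolynomial (Fin b) K →+* Rat' K b a) :=
  IsFractionRing.injective (MvPolynomial (Fin b) K) (FractionRing (MvPolynomial (Fin b) K))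

lemma exists_frac (f : Rat' K b a) :
    ∃ g h : MvPolynomial (Fin b) K, h ≠ 0 ∧ f * poly h = poly g := by
  obtain ⟨g, h, hh, e⟩ :=
    IsFractionRing.div_surjective (K := FractionRing (MvPolynomial (Fin b) K)) (MvPolynomial (Fin b) K) f
  refine ⟨g, h, nonZeroDivisors.ne_zero hh, ?_⟩
  have h0 : (poly h : Rat' K b a) ≠ 0 :=
    (map_ne_zero_iff _ poly_injective).2 (nonZeroDivisors.ne_zero hh)
  have e' : (poly g : Rat' K b a) / poly h = f := e
  rw [← e', div_mul_cancel₀ _ h0]

variable [NeZero a]

lemma expand_poly_injective :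
    Function.Injective ((poly : MvPolynomial (Fin b) K →+* Rat' K b a).comp
      (expand a : MvPolynomial (Fin b) K →ₐ[K] MvPolynomial (Fin b) K).toRingHom) :=
  poly_injective.comp (expand_injective (NeZero.pos a))

instance : Algebra (Base K b) (Rat' K b a) :=
  (IsFractionRing.lift (A := MvPolynomial (Fin b) K) (K := Base K b)
    (expand_poly_injective (K := K) (a := a) (b := b))).toAlgebra

lemma algebraMap_base (p : MvPolynomial (Fin b) K) :
    algebraMap (Base K b) (Rat' K b a) (algebraMap _ _ p) = poly (expand a p) :=
  IsFractionRing.lift_algebraMap _ p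

lemma algebraMap_K (k : K) :
    algebraMap (Base K b) (Rat' K b a) (algebraMap K (Base K b) k) = poly (C k) := by
  rw [IsScalarTower.algebraMap_apply K (MvPolynomial (Fin b) K) (Base K b), algebraMap_base,
    MvPolynomial.algebraMap_eq, expand_C]

variable {w : K}

variable (w) in
/-- The power of the root of unity. -/
def wz (x : ZMod a) : K := w ^ x.val

lemma wz_natCast (hw : w ^ a = 1) (n : ℕ) : wz w (n : ZMod a) = w ^ n := by
  rw [wz, ZMod.val_natCast]
  conv_rhs => rw [← Nat.mod_add_div n a, pow_add, pow_mul, hw, one_pow, mul_one]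

lemma wz_zero : wz w (0 : ZMod a) = 1 := by simp [wz]

lemma wz_add (hw : w ^ a = 1) (x y : ZMod a) : wz w (x + y) = wz w x * wz w y := by
  conv_lhs => rw [← ZMod.natCast_zmod_val x, ← ZMod.natCast_zmod_val y, ← Nat.cast_add,
    wz_natCast hw]
  rw [wz, wz, pow_add]

variable (w) in
/-- Scaling of the variables. -/
def scal (v : Fin b → ZMod a) : MvPolynomial (Fin b) K →ₐ[K] MvPolynomial (Fin b) K :=
  aeval fun j => C (wz w (v j)) * X j

lemma scal_zero (p : MvPolynomial (Fin b) K) : scal w (0 : Fin b → ZMod a) p = p := by
  simp [scal, wz_zero]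

lemma scal_add (hw : w ^ a = 1) (u v : Fin b → ZMod a) (p : MvPolynomial (Fin b) K) :
    scal w u (scal w v p) = scal w (u + v) p := by
  have : (scal w u).comp (scal w v) = scal w (u + v) := by
    ext1 j
    simp [scal, wz_add hw, mul_comm, mul_left_comm]
  exact AlgHom.congr_fun this p

lemma scal_injective (hw : w ^ a = 1) (v : Fin b → ZMod a) :
    Function.Injective (scal w v) :=
  Function.LeftInverse.injective (g := scal w (-v)) fun p => by
    rw [scal_add hw, neg_add_cancel, scal_zero]

lemma scal_monomial (v : Fin b → ZMod a) (d : Fin b →₀ ℕ) (k : K) :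
    scal w v (monomial d k) = monomial d (k * ∏ j, wz w (v j) ^ d j) := by
  rw [scal, aeval_monomial, Finsupp.prod_fintype _ _ fun j => pow_zero _, MvPolynomial.algebraMap_eq]
  simp only [mul_pow, Finset.prod_mul_distrib, ← map_pow, ← map_prod]
  rw [← mul_assoc, ← map_mul, monomial_eq, Finsupp.prod_fintype _ _ fun j => pow_zero _]

lemma support_scal (hw : w ^ a = 1) (v : Fin b → ZMod a) (p : MvPolynomial (Fin b) K) :
    (scal w v p).support = p.support := by
  have h : ∀ (v : Fin b → ZMod a) (p : MvPolynomial (Fin b) K),
      (scal w v p).support ⊆ p.support := fun v p => by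
    classical
    conv_lhs => rw [p.as_sum, map_sum]
    refine MvPolynomial.support_sum.trans (Finset.biUnion_subset.2 fun d hd => ?_)
    rw [scal_monomial]
    exact support_monomial_subset.trans (Finset.singleton_subset_iff.2 hd)
  refine (h v p).antisymm ?_
  have := h (-v) (scal w v p)
  rwa [scal_add hw, neg_add_cancel, scal_zero] at this

lemma scal_expand (hw : w ^ a = 1) (v : Fin b → ZMod a) (p : MvPolynomial (Fin b) K) :
    scal w v (expand a p) = expand a p := by
  have : (scal w v).comp (expand a) = expand a := by
    ext1 j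
    rw [AlgHom.comp_apply, expand_X, map_pow, scal, aeval_X, mul_pow, ← map_pow, wz, ← pow_mul,
      mul_comm (ZMod.val _), pow_mul, hw, one_pow, map_one, one_mul]
  exact AlgHom.congr_fun this p

/-- Scaling of the variables in rational functions. -/
def tw (hw : w ^ a = 1) (v : Fin b → ZMod a) : Rat' K b a →+* Rat' K b a :=
  show FractionRing (MvPolynomial (Fin b) K) →+* Rat' K b a from
  IsFractionRing.lift (A := MvPolynomial (Fin b) K) (K := FractionRing (MvPolynomial (Fin b) K))
    (g := (poly : MvPolynomial (Fin b) K →+* Rat' K b a).comp (scal w v).toRingHom)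
    (poly_injective.comp (scal_injective hw v))

lemma tw_poly (hw : w ^ a = 1) (v : Fin b → ZMod a) (p : MvPolynomial (Fin b) K) :
    tw hw v (poly p : Rat' K b a) = poly (scal w v p) :=
  IsFractionRing.lift_algebraMap (A := MvPolynomial (Fin b) K)
    (K := FractionRing (MvPolynomial (Fin b) K))
    (g := (poly : MvPolynomial (Fin b) K →+* Rat' K b a).comp (scal w v).toRingHom)
    (poly_injective.comp (scal_injective hw v)) p

lemma tw_ext {f g : Rat' K b a →+* Rat' K b a}
    (h : ∀ p : MvPolynomial (Fin b) K, f (poly p) = g (poly p)) : f = g := by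
  let f' : FractionRing (MvPolynomial (Fin b) K) →+* Rat' K b a := f
  let g' : FractionRing (MvPolynomial (Fin b) K) →+* Rat' K b a := g
  have e : f' = g' :=
    IsLocalization.ringHom_ext (nonZeroDivisors (MvPolynomial (Fin b) K)) (RingHom.ext h)
  exact e

lemma tw_add (hw : w ^ a = 1) (u v : Fin b → ZMod a) (f : Rat' K b a) :
    tw hw u (tw hw v f) = tw hw (u + v) f :=
  RingHom.congr_fun (tw_ext (f := (tw hw u).comp (tw hw v)) (g := tw hw (u + v)) fun p => by
    simp [tw_poly, scal_add hw]) f

lemma tw_zero (hw : w ^ a = 1) (f : Rat' K b a) : tw hw 0 f = f :=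
  RingHom.congr_fun (tw_ext (f := tw hw 0) (g := RingHom.id _) fun p => by
    simp [tw_poly, scal_zero]) f

lemma tw_algebraMap (hw : w ^ a = 1) (v : Fin b → ZMod a) (c : Base K b) :
    tw hw v (algebraMap (Base K b) (Rat' K b a) c) = algebraMap _ _ c :=
  RingHom.congr_fun (IsLocalization.ringHom_ext (nonZeroDivisors (MvPolynomial (Fin b) K))
    (j := (tw hw v).comp (algebraMap (Base K b) (Rat' K b a)))
    (k := algebraMap (Base K b) (Rat' K b a)) (RingHom.ext fun p => by
      simp [algebraMap_base, tw_poly, scal_expand hw])) c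

end Vale.Agent.P200.Deg.Torus
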